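import Vale.Agent.P141.Bdl.B1
import Vale.Agent.P141.H115.Final

/-!
# P141: unboundedness region (six parts); growth of the truncations at all Hoelder tuples with
`1 < r`, `p_i < ∞`, for arbitrary slopes, with one constant; the operator `T` itself with the
square root of the logarithm of the number of oscillations of one function
-/

namespace Vale.Agent.Results.P141.AllSlopesAllTuples

open Vale.Agent.P141 Filter Topology MeasureTheory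
open scoped ENNReal SchwartzMap

theorem result :
    (∀ (f₁ f₂ f₃ : 𝓢(ℝ, ℂ)) (x : ℝ),
      Tendsto (fun q : ℝ × ℝ => truncTHT f₁ f₂ f₃ q.1 q.2 x) (𝓝[>] (0 : ℝ) ×ˢ atTop)
        (𝓝 (THT f₁ f₂ f₃ x))) ∧
    (∀ p₁ p₂ p₃ r : ℝ≥0∞, IsHolderTuple p₁ p₂ p₃ r →
      r < ENNReal.ofReal (Real.log 13 / Real.log (676 / 3)) → ¬ BoundedAt p₁ p₂ p₃ r) ∧
    (∀ p₁ p₂ p₃ r : ℝ≥0∞, IsHolderTuple p₁ p₂ p₃ r →
      (2 < (1 - Real.logb 25 2) * (p₁⁻¹).toReal + (p₂⁻¹).toReal + (p₃⁻¹).toReal ∨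
        2 < (p₁⁻¹).toReal + (1 - Real.logb 10 2) * (p₂⁻¹).toReal + (p₃⁻¹).toReal ∨
        2 < (p₁⁻¹).toReal + (p₂⁻¹).toReal + (1 - Real.logb 17 2) * (p₃⁻¹).toReal) →
      ¬ BoundedAt p₁ p₂ p₃ r) ∧
    (∀ r : ℝ≥0∞, 1 / 3 < r → r < 1 / 2 →
      ∃ p₁ p₂ p₃ : ℝ≥0∞, IsHolderTuple p₁ p₂ p₃ r ∧ ¬ BoundedAt p₁ p₂ p₃ r) ∧
    (∀ p₁ p₂ p₃ r : ℝ≥0∞, IsHolderTuple p₁ p₂ p₃ r → r < 1 / 2 → BoundedAt p₁ p₂ p₃ r →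
      ∀ V₁ V₂ C : ℝ, 0 < V₁ → C ^ 2 < V₁ * V₂ →
        (p₁⁻¹).toReal * Real.log ((16 * V₁ - 8 * C + V₂) / V₁) +
          (p₂⁻¹).toReal * Real.log ((16 * V₁ - 8 * C + V₂) / V₂) +
          (p₃⁻¹).toReal * Real.log ((16 * V₁ - 8 * C + V₂) / (V₁ + V₂ - 2 * C)) ≤
        Real.log ((16 * V₁ - 8 * C + V₂) ^ 2 / (V₁ * V₂ - C ^ 2))) ∧
    (∀ p₁ p₂ p₃ r : ℝ≥0∞, IsHolderTuple p₁ p₂ p₃ r → p₁ ≠ ∞ → p₂ ≠ ∞ → p₃ ≠ ∞ → r < 1 →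
      BoundedAt p₁ p₂ p₃ r → ∀ F₁ F₂ F₃ : ℤ → ℝ≥0∞,
        (∑' x, (∑' t, F₁ (x - t) * F₂ (x - 2 * t) * F₃ (x - 3 * t)) ^
            (1 / (1 / r.toReal - 1))) ^ (1 / r.toReal - 1) ≤
          (∑' z, F₁ z ^ p₁.toReal) ^ (1 / p₁.toReal) *
            (∑' z, F₂ z ^ p₂.toReal) ^ (1 / p₂.toReal) *
            (∑' z, F₃ z ^ p₃.toReal) ^ (1 / p₃.toReal)) ∧
    -- growth of the truncations: all slopes, all tuples with `1 < r` and `p_i < ∞`, one constant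
    (∃ C : ℝ, ∀ α₁ α₂ α₃ : ℝ, ∀ p₁ p₂ p₃ r : ℝ≥0∞, r⁻¹ = p₁⁻¹ + p₂⁻¹ + p₃⁻¹ →
      ∀ κ : ℝ, 0 < κ → κ ≤ 1 / 2 → κ ≤ 3 * (p₁⁻¹).toReal → κ ≤ 3 * (p₂⁻¹).toReal →
        κ ≤ 3 * (p₃⁻¹).toReal → κ ≤ 3 * (1 - (r⁻¹).toReal) →
        ∀ f₁ f₂ f₃ : 𝓢(ℝ, ℂ), ∀ ε R : ℝ, 0 < ε → ε < R →
          eLpNorm (fun x : ℝ => ∫ t in {t : ℝ | ε < |t| ∧ |t| < R},
              f₁ (x - α₁ * t) * f₂ (x - α₂ * t) * f₃ (x - α₃ * t) / (t : ℂ)) r volume ≤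
            ENNReal.ofReal (C * Real.log (R / ε) ^ (1 - κ)) * eLpNorm f₁ p₁ volume *
              eLpNorm f₂ p₂ volume * eLpNorm f₃ p₃ volume) ∧
    -- `T` itself at `(6,3,3;6/5)`, `(3,6,3;6/5)`, `(3,3,6;6/5)`, one function regular
    (∃ C : ℝ, ∀ f : Fin 3 → 𝓢(ℝ, ℂ), ∀ j : Fin 3, ∀ a l N : ℝ, 0 < l → 2 ≤ N →
      (∀ x, x ∉ Set.Icc a (a + l) → f j x = 0) →
      (∀ s : ℝ, eLpNorm (fun x => f j (x - s) - f j x) 6 volume ≤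
        ENNReal.ofReal (N / l * |s|) * eLpNorm (f j) 6 volume) →
      eLpNorm (THT (f 0) (f 1) (f 2)) (6 / 5) volume ≤
        ENNReal.ofReal (C * √(Real.log N)) *
          ∏ i, eLpNorm (f i) (if i = j then 6 else 3) volume) := by
  refine ⟨exists_tendsto_truncTHT, fun _ _ _ _ h hr => not_bounded_of_lt h hr,
    fun _ _ _ _ h hu => not_bounded_linear h hu, fun _ h3 h2 => exists_not_bounded h3 h2,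
    fun _ _ _ _ h hr hb _ _ _ hV hΔ => region_of_boundedAt h (two_lt_of_lt_half h.r_pos hr) hb hV hΔ,
    fun _ _ _ _ h t₁ t₂ t₃ hr hb F₁ F₂ F₃ => discrete_of_boundedAt h t₁ t₂ t₃ hr hb F₁ F₂ F₃, ?_,
    H115.tht_regular⟩
  obtain ⟨C, -, hC⟩ := H115.op_all
  refine ⟨C, fun α₁ α₂ α₃ p₁ p₂ p₃ r hs κ h0 h1 b1 b2 b3 b0 f₁ f₂ f₃ ε R hε hR => ?_⟩
  have h := hC α₁ α₂ α₃ κ h0 h1 p₁ p₂ p₃ r b1 b2 b3 b0 hs f₁ f₂ f₃ (H115.nice_schwartz f₁)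
    (H115.nice_schwartz f₂) (H115.nice_schwartz f₃) ε R hε hR
  have e : H97.TT ε R α₁ α₂ α₃ f₁ f₂ f₃ = fun x : ℝ => ∫ t in {t : ℝ | ε < |t| ∧ |t| < R},
      f₁ (x - α₁ * t) * f₂ (x - α₂ * t) * f₃ (x - α₃ * t) / (t : ℂ) := by
    funext x
    exact H115.TT_eq_slopes ε R α₁ α₂ α₃ f₁ f₂ f₃ x
  rwa [e] at h

end Vale.Agent.Results.P141.AllSlopesAllTuples
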