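import Vale.Agent.P141.H97.Sqrt

/-!
# P141: truncations of the trilinear Hilbert transform grow at most like `(log (R/ε))^{1/2}`
-/

namespace Vale.Agent.Results.P141.TruncationSqrtLog

open MeasureTheory Vale.Agent.P141.H97
open scoped ENNReal SchwartzMap

theorem nice (f : 𝓢(ℝ, ℂ)) : Nice f where
  meas := f.continuous.measurable
  bdd := by
    obtain ⟨C, hC⟩ := f.decay 0 0
    exact ⟨C, fun x => by simpa using hC.2 x⟩
  int := f.integrable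

/-- There is a constant `C` such that for all Schwartz functions and all `0 < ε < R` the truncated
trilinear Hilbert transform satisfies
`‖T_{ε,R}(f₁,f₂,f₃)‖₂ ≤ C (log (R/ε))^{1/2} ‖f₁‖₆ ‖f₂‖₆ ‖f₃‖₆`. -/
theorem result :
    ∃ C : ℝ, ∀ f₁ f₂ f₃ : 𝓢(ℝ, ℂ), ∀ ε R : ℝ, 0 < ε → ε < R →
      eLpNorm (fun x : ℝ => ∫ t in {t : ℝ | ε < |t| ∧ |t| < R},
          f₁ (x - t) * f₂ (x - 2 * t) * f₃ (x - 3 * t) / (t : ℂ)) 2 volume ≤
        ENNReal.ofReal (C * √(Real.log (R / ε))) * eLpNorm f₁ 6 volume *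
          eLpNorm f₂ 6 volume * eLpNorm f₃ 6 volume := by
  obtain ⟨C, -, hC⟩ := main_norm 1 2 3 (by norm_num) (by norm_num)
  refine ⟨C, fun f₁ f₂ f₃ ε R hε hR => ?_⟩
  have h := hC f₁ f₂ f₃ (nice f₁) (nice f₂) (nice f₃) ε R hε hR
  have e : TT ε R 1 2 3 f₁ f₂ f₃ = fun x : ℝ => ∫ t in {t : ℝ | ε < |t| ∧ |t| < R},
      f₁ (x - t) * f₂ (x - 2 * t) * f₃ (x - 3 * t) / (t : ℂ) := by
    funext x
    exact TT_eq ε R f₁ f₂ f₃ x
  rwa [e] at h

end Vale.Agent.Results.P141.TruncationSqrtLog
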