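import Vale.Agent.P141.H97.All

/-!
# P141: truncations of the trilinear Hilbert transform grow at most like `(log (R/ε))^{1/2}`,
at all Hoelder tuples with `p₁, p₂, p₃ ≤ 6` and `r ≥ 6/5`
-/

namespace Vale.Agent.Results.P141.TruncationTuples

open MeasureTheory Vale.Agent.P141.H97
open scoped ENNReal SchwartzMap

theorem nice (f : 𝓢(ℝ, ℂ)) : Nice f where
  meas := f.continuous.measurable
  bdd := by
    obtain ⟨C, hC⟩ := f.decay 0 0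
    exact ⟨C, fun x => by simpa using hC.2 x⟩
  int := f.integrable

/-- There is one constant `C` such that, for every Hoelder tuple with `p₁, p₂, p₃ ≤ 6` and
`r ≥ 6/5` (for instance `(4,4,4;4/3)`, `(6,6,6;2)`, `(2,6,6;6/5)`), for all Schwartz functions and
all `0 < ε < R`, `‖T_{ε,R}(f₁,f₂,f₃)‖_r ≤ C (log (R/ε))^{1/2} ‖f₁‖_{p₁} ‖f₂‖_{p₂} ‖f₃‖_{p₃}`. -/
theorem result :
    ∃ C : ℝ, ∀ p₁ p₂ p₃ r : ℝ≥0∞, p₁ ≤ 6 → p₂ ≤ 6 → p₃ ≤ 6 → 6 / 5 ≤ r →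
      r⁻¹ = p₁⁻¹ + p₂⁻¹ + p₃⁻¹ →
      ∀ f₁ f₂ f₃ : 𝓢(ℝ, ℂ), ∀ ε R : ℝ, 0 < ε → ε < R →
        eLpNorm (fun x : ℝ => ∫ t in {t : ℝ | ε < |t| ∧ |t| < R},
            f₁ (x - t) * f₂ (x - 2 * t) * f₃ (x - 3 * t) / (t : ℂ)) r volume ≤
          ENNReal.ofReal (C * √(Real.log (R / ε))) * eLpNorm f₁ p₁ volume *
            eLpNorm f₂ p₂ volume * eLpNorm f₃ p₃ volume := by
  obtain ⟨C, -, hC⟩ := op_nice
  refine ⟨C, fun p₁ p₂ p₃ r h1 h2 h3 hr hs f₁ f₂ f₃ ε R hε hR => ?_⟩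
  have h := hC p₁ p₂ p₃ r h1 h2 h3 hr hs f₁ f₂ f₃ (nice f₁) (nice f₂) (nice f₃) ε R hε hR
  have e : TT ε R 1 2 3 f₁ f₂ f₃ = fun x : ℝ => ∫ t in {t : ℝ | ε < |t| ∧ |t| < R},
      f₁ (x - t) * f₂ (x - 2 * t) * f₃ (x - 3 * t) / (t : ℂ) := by
    funext x
    exact TT_eq ε R f₁ f₂ f₃ x
  rwa [e] at h

end Vale.Agent.Results.P141.TruncationTuples
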